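import Vale.Agent.P074.Key1
import Vale.Agent.P074.Key2

/-!
# The key estimate
-/

open MeasureTheory Set
open scoped ENNReal InnerProductSpace

namespace Vale.Agent.P074.Key

open Vale.Agent.P074.Semi

variable {d : ℕ}

/-- cells decompose integrals -/
theorem sum_cells {ι : Type*} [Fintype ι] [Nonempty ι] {K : Set (E d)}
    {y : ι → E d} (hy : Function.Injective y) (ψ : ι → ℝ) {g : E d → ℝ}
    (hg : IntegrableOn g K) :
    ∑ i, ∫ x in cell K y ψ i, g x = ∫ x in K, g x := by
  have h1 : ∀ i, ∫ x in cell K y ψ i, g x =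
      ∫ x in K, (cell univ y ψ i).indicator (fun _ => (1:ℝ)) x * g x := by
    intro i
    rw [cell_eq, ← setIntegral_indicator (measurableSet_cell_univ y ψ i)]
    congr 1
    ext x
    by_cases hx : x ∈ cell univ y ψ i
    · rw [indicator_of_mem hx, indicator_of_mem hx, one_mul]
    · rw [indicator_of_notMem hx, indicator_of_notMem hx, zero_mul]
  simp_rw [h1]
  rw [← integral_finsetSum]
  · apply integral_congr_ae
    filter_upwards [ae_sum_indicator (ν := volume.restrict K)
      Measure.restrict_le_self.absolutelyContinuous hy ψ] with x hx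
    rw [← Finset.sum_mul, hx, one_mul]
  · intro i _
    have : (fun x => (cell univ y ψ i).indicator (fun _ => (1:ℝ)) x * g x) =
        (cell univ y ψ i).indicator g := by
      ext x
      by_cases hx : x ∈ cell univ y ψ i
      · rw [indicator_of_mem hx, indicator_of_mem hx, one_mul]
      · rw [indicator_of_notMem hx, indicator_of_notMem hx, zero_mul]
    rw [this]
    exact hg.indicator (measurableSet_cell_univ y ψ i)

theorem cell_subset {ι : Type*} (K : Set (E d)) (y : ι → E d) (ψ : ι → ℝ) (i : ι) :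
    cell K y ψ i ⊆ K := fun _ hx => hx.1

theorem cell_mid {ι : Type*} {K : Set (E d)} (hKc : Convex ℝ K) (y : ι → E d) (a b : ι → ℝ)
    (i : ι) : ∀ x ∈ cell K y a i, ∀ z ∈ cell K y b i,
      (1 / 2 : ℝ) • x + (1 / 2 : ℝ) • z ∈ cell K y (fun j => (a j + b j) / 2) i := by
  intro x hx z hz
  refine ⟨hKc hx.1 hz.1 (by norm_num) (by norm_num) (by norm_num), fun j => ?_⟩
  have h1 := hx.2 j
  have h2 := hz.2 j
  simp only [inner_add_left, inner_smul_left, RCLike.conj_to_real]
  linarith

/-- the inverse weight -/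
noncomputable def ew (lam : ℝ) (x : E d) : ℝ := Real.exp (lam / 2 * ‖x‖ ^ 2)

theorem wt_mul_ew (lam : ℝ) (x : E d) : wt lam x * ew lam x = 1 := by
  unfold wt ew
  rw [← Real.exp_add]; simp

theorem ew_continuous (lam : ℝ) : Continuous (ew (d := d) lam) := by
  unfold ew; fun_prop

theorem ew_pos (lam : ℝ) (x : E d) : 0 < ew lam x := Real.exp_pos _

theorem ew_le {lam D : ℝ} (hlam : 0 ≤ lam) {x : E d} (hx : ‖x‖ ≤ D) :
    ew lam x ≤ Real.exp (lam / 2 * D ^ 2) := by
  unfold ew
  apply Real.exp_le_exp.mpr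
  have : ‖x‖ ^ 2 ≤ D ^ 2 := pow_le_pow_left₀ (norm_nonneg _) hx 2
  exact mul_le_mul_of_nonneg_left this (by positivity)

theorem ew_lip {lam D : ℝ} (hlam : 0 ≤ lam) {x z : E d} (hx : ‖x‖ ≤ D) (hz : ‖z‖ ≤ D) :
    |ew lam z - ew lam x| ≤ Real.exp (lam / 2 * D ^ 2) * (lam * D) * ‖x - z‖ := by
  have hD0 : 0 ≤ D := (norm_nonneg _).trans hx
  have main : ∀ x z : E d, ‖x‖ ≤ D → ‖z‖ ≤ D →
      ew lam z - ew lam x ≤ Real.exp (lam / 2 * D ^ 2) * (lam * D) * ‖x - z‖ := by
    intro x z hx hz
    set s : ℝ := lam / 2 * ‖z‖ ^ 2 with hs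
    set t : ℝ := lam / 2 * ‖x‖ ^ 2 with ht
    have h1 : Real.exp s - Real.exp t ≤ Real.exp s * |s - t| := by
      have h2 := Real.add_one_le_exp (t - s)
      have h3 : Real.exp t = Real.exp s * Real.exp (t - s) := by
        rw [← Real.exp_add]; congr 1; ring
      have h4 : Real.exp s - Real.exp t ≤ Real.exp s * (s - t) := by
        rw [h3]
        have := mul_le_mul_of_nonneg_left h2 (Real.exp_pos s).le
        linarith
      exact h4.trans (mul_le_mul_of_nonneg_left (le_abs_self _) (Real.exp_pos s).le)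
    have h5 : |s - t| ≤ lam * D * ‖x - z‖ := by
      have e1 : s - t = lam / 2 * ((‖z‖ - ‖x‖) * (‖z‖ + ‖x‖)) := by rw [hs, ht]; ring
      rw [e1, abs_mul, abs_mul, abs_of_nonneg (by positivity : (0:ℝ) ≤ lam / 2),
        abs_of_nonneg (by positivity : (0:ℝ) ≤ ‖z‖ + ‖x‖)]
      have e2 : |‖z‖ - ‖x‖| ≤ ‖x - z‖ := by
        rw [abs_sub_comm]; exact abs_norm_sub_norm_le x z
      have e3 : |‖z‖ - ‖x‖| * (‖z‖ + ‖x‖) ≤ ‖x - z‖ * (2 * D) :=
        mul_le_mul e2 (by linarith) (by positivity) (norm_nonneg _)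
      calc lam / 2 * (|‖z‖ - ‖x‖| * (‖z‖ + ‖x‖)) ≤ lam / 2 * (‖x - z‖ * (2 * D)) :=
            mul_le_mul_of_nonneg_left e3 (by positivity)
        _ = _ := by ring
    have h6 : Real.exp s ≤ Real.exp (lam / 2 * D ^ 2) := ew_le hlam hz
    calc ew lam z - ew lam x = Real.exp s - Real.exp t := rfl
      _ ≤ Real.exp s * |s - t| := h1
      _ ≤ Real.exp (lam / 2 * D ^ 2) * (lam * D * ‖x - z‖) :=
          mul_le_mul h6 h5 (abs_nonneg _) (Real.exp_pos _).le
      _ = _ := by ring
  rw [abs_sub_le_iff]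
  refine ⟨main x z hx hz, ?_⟩
  have := main z x hz hx
  rwa [norm_sub_rev] at this

theorem exp_small : Real.exp (1 / 128) ≤ 101 / 100 := by
  have h1 := Real.one_sub_le_exp_neg (1 / 128)
  have h2 : Real.exp (-(1 / 128)) * Real.exp (1 / 128) = 1 := by
    rw [← Real.exp_add]; simp
  have h3 : 0 < Real.exp (1 / 128) := Real.exp_pos _
  nlinarith

/-- Cauchy-Schwarz -/
theorem cs {B : Set (E d)} {f g : E d → ℝ} (hf : IntegrableOn (fun x => f x ^ 2) B)
    (hg : IntegrableOn (fun x => g x ^ 2) B) (hfg : IntegrableOn (fun x => f x * g x) B) :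
    (∫ x in B, f x * g x) ^ 2 ≤ (∫ x in B, g x ^ 2) * ∫ x in B, f x ^ 2 := by
  have h := discrim_le_zero (a := ∫ x in B, g x ^ 2) (b := -2 * ∫ x in B, f x * g x)
    (c := ∫ x in B, f x ^ 2) (fun t => by
      have h1 : 0 ≤ ∫ x in B, (f x - t * g x) ^ 2 := integral_nonneg fun x => sq_nonneg _
      have h2 : ∫ x in B, (f x - t * g x) ^ 2 = (t * t) * (∫ x in B, g x ^ 2) +
          (-2 * t) * (∫ x in B, f x * g x) + ∫ x in B, f x ^ 2 := by
        have e1 : ∫ x in B, (t * t * g x ^ 2 + (-2 * t) * (f x * g x)) =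
            (t * t) * (∫ x in B, g x ^ 2) + (-2 * t) * (∫ x in B, f x * g x) := by
          rw [integral_add (hg.const_mul _) (hfg.const_mul _), integral_const_mul,
            integral_const_mul]
        have e2 : ∫ x in B, ((t * t * g x ^ 2 + (-2 * t) * (f x * g x)) + f x ^ 2) =
            (∫ x in B, (t * t * g x ^ 2 + (-2 * t) * (f x * g x))) + ∫ x in B, f x ^ 2 :=
          integral_add ((hg.const_mul _).add (hfg.const_mul _)) hf
        rw [← e1, ← e2]
        congr 1
        ext x
        ring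
      rw [h2] at h1
      linarith)
  unfold discrim at h
  nlinarith

section bounds

variable {K A : Set (E d)} {D lam : ℝ}

theorem wt_int_le (hK : IsCompact K) (hAK : A ⊆ K) (hlam : 0 ≤ lam) :
    ∫ x in A, wt lam x ≤ (volume A).toReal := by
  have hfin : volume A ≠ ⊤ := ((measure_mono hAK).trans_lt hK.measure_lt_top).ne
  have h1 : ∫ x in A, wt lam x ≤ ∫ x in A, (1:ℝ) := by
    apply integral_mono (integrableOn_of_cont hK hAK (wt_continuous lam))
      (integrableOn_const hfin)
    intro x
    exact wt_le_one hlam x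
  simpa [Measure.real] using h1

theorem vol_le_wt_int (hK : IsCompact K) (hA : MeasurableSet A) (hAK : A ⊆ K)
    (hKD : K ⊆ Metric.closedBall 0 D) (hlam : 0 ≤ lam) (hlD : lam / 2 * D ^ 2 = 1 / 128) :
    (volume A).toReal ≤ 101 / 100 * ∫ x in A, wt lam x := by
  have hfin : volume A ≠ ⊤ := ((measure_mono hAK).trans_lt hK.measure_lt_top).ne
  have h1 : ∫ x in A, (1:ℝ) ≤ ∫ x in A, 101 / 100 * wt lam x := by
    apply setIntegral_mono_on (integrableOn_const hfin)
      ((integrableOn_of_cont hK hAK (wt_continuous lam)).const_mul _) hA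
    intro x hx
    have h2 : ew lam x ≤ 101 / 100 := by
      refine (ew_le hlam (mem_closedBall_zero_iff.mp (hKD (hAK hx)))).trans ?_
      rw [hlD]; exact exp_small
    have h3 := wt_mul_ew lam x
    have h4 := wt_pos lam x
    nlinarith
  rw [integral_const_mul] at h1
  simpa [Measure.real] using h1

end bounds

/-- The key estimate. -/
theorem keyProp (d : ℕ) {D : ℝ} (hD : 0 < D) : KeyProp d D (130 * D) := by
  intro K hK hKc hKD ι _ y hy a b H hH hHb hmass v
  rcases isEmpty_or_nonempty ι with hι | hι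
  · simp
  set lam : ℝ := 1 / (64 * D ^ 2) with hlam_def
  have hlam : 0 < lam := by positivity
  have hlD2 : lam * D ^ 2 = 1 / 64 := by rw [hlam_def]; field_simp
  have hlD : lam / 2 * D ^ 2 = 1 / 128 := by linarith
  have hKm : MeasurableSet K := hK.measurableSet
  have hnorm : ∀ x ∈ K, ‖x‖ ≤ D := fun x hx => mem_closedBall_zero_iff.mp (hKD hx)
  have hAm : ∀ i, MeasurableSet (cell K y a i) := fun i => measurableSet_cell hKm y a i
  have hBm : ∀ i, MeasurableSet (cell K y b i) := fun i => measurableSet_cell hKm y b i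
  have hAK : ∀ i, cell K y a i ⊆ K := cell_subset K y a
  have hBK : ∀ i, cell K y b i ⊆ K := cell_subset K y b
  have hfin : ∀ {S : Set (E d)}, S ⊆ K → volume S ≠ ⊤ := fun h =>
    ((measure_mono h).trans_lt hK.measure_lt_top).ne
  have hHK : IntegrableOn H K := integrableOn_bdd hK hH hHb
  have hH2K : IntegrableOn (fun x => H x ^ 2) K := by
    refine integrableOn_bdd (B := 1) hK (hH.pow_const 2) fun x hx => ?_
    rw [abs_pow]
    have := hHb x hx
    have h0 := abs_nonneg (H x)
    nlinarith
  have hwK : IntegrableOn (fun x => wt lam x) K :=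
    integrableOn_of_cont hK subset_rfl (wt_continuous lam)
  have hvc : ∀ i, Continuous (fun x : E d => (inner ℝ (v i) x : ℝ)) := fun i => by fun_prop
  have hHvK : ∀ i, IntegrableOn (fun x => H x * inner ℝ (v i) x) K := by
    intro i
    have h1 : IntegrableOn (fun x : E d => (inner ℝ (v i) x : ℝ)) K :=
      integrableOn_of_cont hK subset_rfl (hvc i)
    refine Integrable.bdd_mul (c := 1 / 2) h1 hH.aestronglyMeasurable ?_
    filter_upwards [ae_restrict_mem hKm] with x hx
    rw [Real.norm_eq_abs]; exact hHb x hx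
  have hvb : ∀ i, ∀ x ∈ K, |(inner ℝ (v i) x : ℝ)| ≤ D * ‖v i‖ := fun i x hx => by
    refine (abs_real_inner_le_norm _ _).trans ?_
    rw [mul_comm]
    exact mul_le_mul_of_nonneg_right (hnorm x hx) (norm_nonneg _)
  -- ew bounds
  have hewK : ∀ x ∈ K, ew lam x ≤ 101 / 100 := fun x hx => by
    refine (ew_le hlam.le (hnorm x hx)).trans ?_
    rw [hlD]; exact exp_small
  have hewL : ∀ x ∈ K, ∀ z ∈ K, |ew lam z - ew lam x| ≤ 101 / 100 * (lam * D) * ‖x - z‖ := by
    intro x hx z hz
    refine (ew_lip hlam.le (hnorm x hx) (hnorm z hz)).trans ?_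
    rw [hlD]
    have := exp_small
    gcongr
  have habs_int : ∀ (S : Set (E d)), S ⊆ K → MeasurableSet S → ∀ (f : E d → ℝ) (c : ℝ),
      (∀ x ∈ K, |f x| ≤ c) → |∫ x in S, f x| ≤ c * (volume S).toReal := by
    intro S hS hSm f c hc
    have := norm_setIntegral_le_of_norm_le_const (μ := volume) (s := S) (f := f) (C := c)
      (lt_top_iff_ne_top.mpr (hfin hS)) (fun x hx => by
        rw [Real.norm_eq_abs]; exact hc x (hS hx))
    simpa [Real.norm_eq_abs, Measure.real] using this
  have hfinal := alg (ι := ι) (D := D) (P := ∫ x in K, H x ^ 2)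
    (m0 := fun i => (volume (cell K y a i)).toReal)
    (m1 := fun i => (volume (cell K y b i)).toReal)
    (g0 := fun i => ∫ x in cell K y a i, wt lam x)
    (g1 := fun i => ∫ x in cell K y b i, wt lam x)
    (gM := fun i => ∫ x in cell K y (fun j => (a j + b j) / 2) i, wt lam x)
    (η := fun i => ∫ x in cell K y b i, H x)
    (q := fun i => ∫ x in cell K y b i, H x ^ 2)
    (n := fun i => ‖v i‖)
    (β0 := fun i => ∫ x in cell K y a i, inner ℝ (v i) x)
    (β1 := fun i => ∫ x in cell K y b i, inner ℝ (v i) x)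
    (ζ := fun i => ∫ x in cell K y b i, H x * inner ℝ (v i) x)
    hD (fun i => ENNReal.toReal_nonneg) (fun i => ENNReal.toReal_nonneg)
    (fun i => integral_nonneg fun x => (wt_pos lam x).le)
    (fun i => integral_nonneg fun x => (wt_pos lam x).le)
    (fun i => integral_nonneg fun x => (wt_pos lam x).le)
    (fun i => integral_nonneg fun x => sq_nonneg _)
    (fun i => norm_nonneg _)
    ?hmass ?hη ?hη2
    (fun i => wt_int_le hK (hAK i) hlam.le)
    (fun i => vol_le_wt_int hK (hAm i) (hAK i) hKD hlam.le hlD)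
    (fun i => wt_int_le hK (hBK i) hlam.le)
    (fun i => vol_le_wt_int hK (hBm i) (hBK i) hKD hlam.le hlD)
    ?hsumM ?hsum1 ?hP ?I1 ?I2 ?hβ0 ?hβ1 ?hζ
  case hmass =>
    intro i
    have hc1 : IntegrableOn (fun _ : E d => (1:ℝ)) (cell K y b i) :=
      integrableOn_const (hfin (hBK i))
    rw [hmass i, integral_add hc1 (hHK.mono_set (hBK i))]
    simp [Measure.real]
  case hη =>
    intro i
    have := habs_int _ (hBK i) (hBm i) H (1 / 2) hHb
    linarith
  case hη2 =>
    intro i
    have := cs (B := cell K y b i) (f := H) (g := fun _ => 1) (hH2K.mono_set (hBK i))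
      (integrableOn_const (hfin (hBK i)))
      ((hHK.mono_set (hBK i)).mul_const 1)
    simpa [Measure.real] using this
  case hsumM =>
    rw [sum_cells hy _ hwK, sum_cells hy _ hwK]
  case hsum1 =>
    rw [sum_cells hy _ hwK, sum_cells hy _ hwK]
  case hP => exact sum_cells hy _ hH2K
  case hβ0 =>
    intro i
    exact habs_int _ (hAK i) (hAm i) _ _ (hvb i)
  case hβ1 =>
    intro i
    exact habs_int _ (hBK i) (hBm i) _ _ (hvb i)
  case hζ =>
    intro i
    have h1 : IntegrableOn (fun x => (inner ℝ (v i) x : ℝ) ^ 2) (cell K y b i) :=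
      integrableOn_of_cont hK (hBK i) ((hvc i).pow 2)
    have h2 := cs (B := cell K y b i) (f := H) (g := fun x => inner ℝ (v i) x)
      (hH2K.mono_set (hBK i)) h1 ((hHvK i).mono_set (hBK i))
    refine h2.trans ?_
    have h3 : ∫ x in cell K y b i, (inner ℝ (v i) x : ℝ) ^ 2 ≤
        (D * ‖v i‖) ^ 2 * (volume (cell K y b i)).toReal := by
      refine (le_abs_self _).trans (habs_int _ (hBK i) (hBm i) _ _ fun x hx => ?_)
      rw [abs_pow]
      exact pow_le_pow_left₀ (abs_nonneg _) (hvb i x hx) 2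
    have h4 : 0 ≤ ∫ x in cell K y b i, H x ^ 2 := integral_nonneg fun x => sq_nonneg _
    calc _ ≤ ((D * ‖v i‖) ^ 2 * (volume (cell K y b i)).toReal) *
          ∫ x in cell K y b i, H x ^ 2 := mul_le_mul_of_nonneg_right h3 h4
      _ = _ := by ring
  case I1 =>
    intro i h0 h1
    set g0 : ℝ := ∫ x in cell K y a i, wt lam x with hg0
    set g1 : ℝ := ∫ x in cell K y b i, wt lam x with hg1
    set Δ : ℝ := (volume (cell K y b i)).toReal / g1 - (volume (cell K y a i)).toReal / g0 with hΔ
    have hint : ∀ S : Set (E d), ∫ x in S, wt lam x * (16 * Δ * ew lam x) =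
        16 * Δ * (volume S).toReal := by
      intro S
      have : (fun x : E d => wt lam x * (16 * Δ * ew lam x)) = fun _ => 16 * Δ := by
        ext x
        have := wt_mul_ew lam x
        linear_combination (16 * Δ) * this
      rw [this]
      simp [Measure.real, mul_comm]
    have key := cell_ineq (l := 16 * |Δ| * (101 / 100 * (lam * D))) hK (hAm i) (hBm i)
      (measurableSet_cell hKm y _ i) (hAK i) (hBK i) (cell_subset K y _ i)
      (cell_mid hKc y a b i) hlam (u := fun x => 16 * Δ * ew lam x)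
      (continuous_const.mul (ew_continuous lam)) ?_ h0 h1
    · rw [hint, hint, ← hg0, ← hg1] at key
      refine le_trans ?_ key
      have e1 : 2 * (16 * |Δ| * (101 / 100 * (lam * D))) ^ 2 / lam =
          512 * (101 / 100) ^ 2 * (lam * D ^ 2) * Δ ^ 2 := by
        rw [mul_pow, mul_pow, sq_abs]
        field_simp
        ring
      have e2 : 16 * Δ * (volume (cell K y b i)).toReal / g1 -
          16 * Δ * (volume (cell K y a i)).toReal / g0 = 16 * Δ ^ 2 := by
        rw [mul_div_assoc, mul_div_assoc, ← mul_sub, ← hΔ]; ring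
      rw [e1, e2, hlD2]
      have : g0 * (7 * Δ ^ 2) ≤ g0 * (16 * Δ ^ 2 - 512 * (101 / 100) ^ 2 * (1 / 64) * Δ ^ 2) := by
        apply mul_le_mul_of_nonneg_left _ h0.le
        nlinarith [sq_nonneg Δ]
      linarith
    · intro x hx z hz
      have h2 := hewL x hx z hz
      calc 16 * Δ * ew lam z - 16 * Δ * ew lam x = 16 * (Δ * (ew lam z - ew lam x)) := by ring
        _ ≤ 16 * (|Δ| * |ew lam z - ew lam x|) := by
            rw [← abs_mul]
            exact mul_le_mul_of_nonneg_left (le_abs_self _) (by norm_num)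
        _ ≤ 16 * (|Δ| * (101 / 100 * (lam * D) * ‖x - z‖)) := by gcongr
        _ = _ := by ring
  case I2 =>
    intro i s h0 h1
    set g0 : ℝ := ∫ x in cell K y a i, wt lam x with hg0
    set g1 : ℝ := ∫ x in cell K y b i, wt lam x with hg1
    set β0 : ℝ := ∫ x in cell K y a i, inner ℝ (v i) x with hβ0
    set β1 : ℝ := ∫ x in cell K y b i, inner ℝ (v i) x with hβ1
    set c : ℝ := s * (g1 / g0) with hc
    have hint : ∀ S : Set (E d), ∫ x in S, wt lam x * (c * inner ℝ (v i) x * ew lam x) =
        c * ∫ x in S, inner ℝ (v i) x := by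
      intro S
      rw [← integral_const_mul]
      congr 1
      ext x
      have := wt_mul_ew lam x
      linear_combination (c * inner ℝ (v i) x) * this
    have key := cell_ineq (l := 2 * (|c| * ‖v i‖)) hK (hAm i) (hBm i)
      (measurableSet_cell hKm y _ i) (hAK i) (hBK i) (cell_subset K y _ i)
      (cell_mid hKc y a b i) hlam (u := fun x => c * inner ℝ (v i) x * ew lam x)
      ((continuous_const.mul (hvc i)).mul (ew_continuous lam)) ?_ h0 h1
    · rw [hint, hint, ← hg0, ← hg1, ← hβ0, ← hβ1] at key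
      refine le_trans (le_of_eq ?_) key
      have e1 : 2 * (2 * (|c| * ‖v i‖)) ^ 2 / lam = 512 * D ^ 2 * (c ^ 2 * ‖v i‖ ^ 2) := by
        rw [mul_pow, mul_pow, sq_abs, hlam_def]
        field_simp
        ring
      rw [e1, hc]
      field_simp
    · intro x hx z hz
      have h2 := hewL x hx z hz
      have h3 : |inner ℝ (v i) z - inner ℝ (v i) x| ≤ ‖v i‖ * ‖x - z‖ := by
        rw [← inner_sub_right, norm_sub_rev]
        exact abs_real_inner_le_norm _ _
      have h4 : |inner ℝ (v i) z * ew lam z - inner ℝ (v i) x * ew lam x| ≤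
          2 * ‖v i‖ * ‖x - z‖ := by
        have e1 : inner ℝ (v i) z * ew lam z - inner ℝ (v i) x * ew lam x =
            (inner ℝ (v i) z - inner ℝ (v i) x) * ew lam z +
              inner ℝ (v i) x * (ew lam z - ew lam x) := by ring
        rw [e1]
        refine (abs_add_le _ _).trans ?_
        rw [abs_mul, abs_mul, abs_of_pos (ew_pos lam z)]
        have e2 : |inner ℝ (v i) z - inner ℝ (v i) x| * ew lam z ≤
            (‖v i‖ * ‖x - z‖) * (101 / 100) :=
          mul_le_mul h3 (hewK z hz) (ew_pos _ _).le (by positivity)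
        have e3 : |(inner ℝ (v i) x : ℝ)| * |ew lam z - ew lam x| ≤
            (D * ‖v i‖) * (101 / 100 * (lam * D) * ‖x - z‖) :=
          mul_le_mul (hvb i x hx) h2 (abs_nonneg _) (by positivity)
        have e4 : (D * ‖v i‖) * (101 / 100 * (lam * D) * ‖x - z‖) =
            101 / 100 * (lam * D ^ 2) * (‖v i‖ * ‖x - z‖) := by ring
        rw [e4, hlD2] at e3
        have e5 : 0 ≤ ‖v i‖ * ‖x - z‖ := by positivity
        nlinarith
      calc c * inner ℝ (v i) z * ew lam z - c * inner ℝ (v i) x * ew lam x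
          = c * (inner ℝ (v i) z * ew lam z - inner ℝ (v i) x * ew lam x) := by ring
        _ ≤ |c| * |inner ℝ (v i) z * ew lam z - inner ℝ (v i) x * ew lam x| := by
            rw [← abs_mul]; exact le_abs_self _
        _ ≤ |c| * (2 * ‖v i‖ * ‖x - z‖) := mul_le_mul_of_nonneg_left h4 (abs_nonneg _)
        _ = _ := by ring
  refine le_trans (le_of_eq ?_) hfinal
  congr 1
  refine Finset.sum_congr rfl fun i _ => ?_
  have hid : IntegrableOn (fun x : E d => x) K :=
    (continuous_id.continuousOn.integrableOn_compact hK)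
  have hHid : IntegrableOn (fun x : E d => (1 + H x) • x) (cell K y b i) := by
    have h1 : IntegrableOn (fun x : E d => (1 + H x) • x) K := by
      refine Integrable.bdd_smul hid (3 / 2)
        (measurable_const.add hH).aestronglyMeasurable ?_
      filter_upwards [ae_restrict_mem hKm] with x hx
      have := abs_le.mp (hHb x hx)
      rw [Real.norm_eq_abs, abs_le]
      simp only [Pi.add_apply]
      constructor <;> linarith [this.1, this.2]
    exact h1.mono_set (hBK i)
  rw [inner_sub_right, ← integral_inner hHid, ← integral_inner (hid.mono_set (hAK i)),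
    ← integral_add (integrableOn_of_cont hK (hBK i) (hvc i)) ((hHvK i).mono_set (hBK i))]
  congr 2
  ext x
  rw [inner_smul_right]
  ring

end Vale.Agent.P074.Key
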