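import Vale.Agent.P074.Path
import Vale.Agent.P226.PL

/-!
# Prekopa-Leindler per cell
-/

open MeasureTheory Set
open scoped ENNReal InnerProductSpace

namespace Vale.Agent.P074.Key

open Vale.Agent.P226 Vale.Agent.P074.Semi

variable {d : ℕ}

theorem pl_E : PLprop (volume : Measure (E d)) := by
  have h1 : PLprop (Measure.pi (fun _ : Fin d => (volume : Measure ℝ))) :=
    PLprop.pi plprop_volume_real d
  have hmp := PiLp.volume_preserving_toLp (Fin d)
  have h2 := h1.map (((WithLp.linearEquiv 2 ℝ (Fin d → ℝ)).symm :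
    (Fin d → ℝ) ≃ₗ[ℝ] E d) : (Fin d → ℝ) →ₗ[ℝ] E d) hmp.measurable
  have h3 : Measure.map (⇑((((WithLp.linearEquiv 2 ℝ (Fin d → ℝ)).symm :
    (Fin d → ℝ) ≃ₗ[ℝ] E d) : (Fin d → ℝ) →ₗ[ℝ] E d)))
    (Measure.pi (fun _ : Fin d => (volume : Measure ℝ))) = volume := hmp.map_eq
  rwa [h3] at h2

/-- Midpoint form for real integrals over bounded sets. -/
theorem pl_mid {A B M : Set (E d)} (hA : MeasurableSet A) (hB : MeasurableSet B)
    (hM : MeasurableSet M) {p q r : E d → ℝ} (hp : Measurable p) (hq : Measurable q)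
    (hr : Measurable r) {c : ℝ} (hc : 0 ≤ c)
    (hp0 : ∀ x, 0 < p x) (hq0 : ∀ x, 0 < q x) (hr0 : ∀ x, 0 < r x)
    (hpi : IntegrableOn p A) (hqi : IntegrableOn q B) (hri : IntegrableOn r M)
    (hmid : ∀ x ∈ A, ∀ y ∈ B, (1 / 2 : ℝ) • x + (1 / 2 : ℝ) • y ∈ M)
    (hineq : ∀ x ∈ A, ∀ y ∈ B,
      Real.sqrt (p x * q y) ≤ c * r ((1 / 2 : ℝ) • x + (1 / 2 : ℝ) • y)) :
    Real.sqrt ((∫ x in A, p x) * (∫ x in B, q x)) ≤ c * ∫ x in M, r x := by
  have key := pl_E (d := d) (1 / 2) (by norm_num) (by norm_num)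
    (A.indicator fun x => ENNReal.ofReal (p x)) (B.indicator fun x => ENNReal.ofReal (q x))
    (M.indicator fun x => ENNReal.ofReal (c * r x))
    (hp.ennreal_ofReal.indicator hA) (hq.ennreal_ofReal.indicator hB)
    ((hr.const_mul c).ennreal_ofReal.indicator hM) ?_
  · rw [lintegral_indicator hA, lintegral_indicator hB, lintegral_indicator hM,
      ← ofReal_integral_eq_lintegral_ofReal hpi (Filter.Eventually.of_forall fun x => (hp0 x).le),
      ← ofReal_integral_eq_lintegral_ofReal hqi (Filter.Eventually.of_forall fun x => (hq0 x).le),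
      ← ofReal_integral_eq_lintegral_ofReal (hri.const_mul c)
        (Filter.Eventually.of_forall fun x => mul_nonneg hc (hr0 x).le)] at key
    have ip : 0 ≤ ∫ x in A, p x := integral_nonneg fun x => (hp0 x).le
    have iq : 0 ≤ ∫ x in B, q x := integral_nonneg fun x => (hq0 x).le
    have ir : 0 ≤ ∫ x in M, c * r x := integral_nonneg fun x => mul_nonneg hc (hr0 x).le
    rw [ENNReal.ofReal_rpow_of_nonneg ip (by norm_num), ENNReal.ofReal_rpow_of_nonneg iq (by norm_num),
      ← ENNReal.ofReal_mul (by positivity), ENNReal.ofReal_le_ofReal_iff ir] at key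
    rw [integral_const_mul] at key
    rw [Real.sqrt_mul ip, Real.sqrt_eq_rpow, Real.sqrt_eq_rpow]
    norm_num at key ⊢
    exact key
  · intro x y
    by_cases hx : x ∈ A
    · by_cases hy : y ∈ B
      · have e : (1 - (1 / 2 : ℝ)) = 1 / 2 := by norm_num
        rw [e, indicator_of_mem hx, indicator_of_mem hy, indicator_of_mem (hmid x hx y hy),
          ENNReal.ofReal_rpow_of_nonneg (hp0 x).le (by norm_num),
          ENNReal.ofReal_rpow_of_nonneg (hq0 y).le (by norm_num),
          ← ENNReal.ofReal_mul (by have := hp0 x; positivity)]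
        apply ENNReal.ofReal_le_ofReal
        have := hineq x hx y hy
        rwa [Real.sqrt_mul (hp0 x).le, Real.sqrt_eq_rpow, Real.sqrt_eq_rpow] at this
      · rw [indicator_of_notMem hy, ENNReal.zero_rpow_of_pos (by norm_num), mul_zero]
        exact zero_le
    · rw [indicator_of_notMem hx, ENNReal.zero_rpow_of_pos (by norm_num), zero_mul]
      exact zero_le

/-- the Gaussian weight -/
noncomputable def wt (lam : ℝ) (x : E d) : ℝ := Real.exp (-(lam / 2 * ‖x‖ ^ 2))

theorem wt_pos (lam : ℝ) (x : E d) : 0 < wt lam x := Real.exp_pos _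

theorem wt_continuous (lam : ℝ) : Continuous (wt (d := d) lam) := by
  unfold wt; fun_prop

theorem wt_le_one {lam : ℝ} (hlam : 0 ≤ lam) (x : E d) : wt lam x ≤ 1 := by
  unfold wt
  rw [Real.exp_le_one_iff]
  have : 0 ≤ lam / 2 * ‖x‖ ^ 2 := by positivity
  linarith

theorem integrableOn_of_cont {A K : Set (E d)} (hK : IsCompact K) (hAK : A ⊆ K)
    {f : E d → ℝ} (hf : Continuous f) : IntegrableOn f A :=
  (hf.continuousOn.integrableOn_compact hK).mono_set hAK

/-- Jensen for the exponential. -/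
theorem jensen_exp {A K : Set (E d)} (hK : IsCompact K) (hAK : A ⊆ K) {lam : ℝ}
    {u : E d → ℝ} (hu : Continuous u) (c : ℝ) {m : ℝ}
    (hm : ∫ x in A, wt lam x * u x = m * ∫ x in A, wt lam x) :
    Real.exp (c * m) * (∫ x in A, wt lam x) ≤ ∫ x in A, wt lam x * Real.exp (c * u x) := by
  have i1 : IntegrableOn (fun x => wt lam x) A := integrableOn_of_cont hK hAK (wt_continuous lam)
  have i2 : IntegrableOn (fun x => wt lam x * u x) A :=
    integrableOn_of_cont hK hAK ((wt_continuous lam).mul hu)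
  have i3 : IntegrableOn (fun x => wt lam x * Real.exp (c * u x)) A :=
    integrableOn_of_cont hK hAK ((wt_continuous lam).mul (Real.continuous_exp.comp (by fun_prop)))
  have h1 : ∫ x in A, (Real.exp (c * m) * (1 - c * m) * wt lam x +
      Real.exp (c * m) * c * (wt lam x * u x)) ≤ ∫ x in A, wt lam x * Real.exp (c * u x) := by
    apply integral_mono ((i1.const_mul _).add (i2.const_mul _)) i3
    intro x
    simp only [Pi.add_apply]
    have h2 : Real.exp (c * m) * (1 + (c * u x - c * m)) ≤ Real.exp (c * u x) := by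
      have h3 := Real.add_one_le_exp (c * u x - c * m)
      have h4 : Real.exp (c * u x) = Real.exp (c * m) * Real.exp (c * u x - c * m) := by
        rw [← Real.exp_add]; congr 1; ring
      rw [h4]
      exact mul_le_mul_of_nonneg_left (by linarith) (Real.exp_pos _).le
    have h5 := mul_le_mul_of_nonneg_left h2 (wt_pos lam x).le
    linarith
  rw [integral_add (i1.const_mul _) (i2.const_mul _), integral_const_mul, integral_const_mul,
    hm] at h1
  refine le_trans (le_of_eq ?_) h1
  ring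

theorem scalar_ineq {g0 g1 t : ℝ} (h0 : 0 < g0) (h1 : 0 < g1) :
    g0 + g0 * t + 1 / 2 * (g0 - g0 ^ 2 / g1) ≤ Real.sqrt (g0 * g1) * Real.exp t := by
  have e1 : Real.sqrt (g0 * g1) * Real.exp t = g0 * Real.exp (t + 1 / 2 * Real.log (g1 / g0)) := by
    rw [Real.exp_add]
    have e2 : Real.exp (1 / 2 * Real.log (g1 / g0)) = Real.sqrt (g1 / g0) := by
      rw [Real.sqrt_eq_rpow, Real.rpow_def_of_pos (by positivity)]
      congr 1; ring
    rw [e2]
    have e3 : Real.sqrt (g0 * g1) = g0 * Real.sqrt (g1 / g0) := by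
      have : g0 * g1 = g0 ^ 2 * (g1 / g0) := by field_simp
      rw [this, Real.sqrt_mul (by positivity), Real.sqrt_sq h0.le]
    rw [e3]; ring
  rw [e1]
  have h2 := Real.add_one_le_exp (t + 1 / 2 * Real.log (g1 / g0))
  have h3 : 1 - g0 / g1 ≤ Real.log (g1 / g0) := by
    have h4 := Real.log_le_sub_one_of_pos (x := g0 / g1) (by positivity)
    have h5 : Real.log (g0 / g1) = - Real.log (g1 / g0) := by
      rw [← Real.log_inv, inv_div]
    linarith
  have h6 : g0 * (1 + t + 1 / 2 * (1 - g0 / g1)) ≤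
      g0 * Real.exp (t + 1 / 2 * Real.log (g1 / g0)) :=
    mul_le_mul_of_nonneg_left (by linarith) h0.le
  refine le_trans (le_of_eq ?_) h6
  field_simp

/-- The per-cell inequality. -/
theorem cell_ineq {A B M K : Set (E d)} (hK : IsCompact K) (hA : MeasurableSet A)
    (hB : MeasurableSet B) (hM : MeasurableSet M) (hAK : A ⊆ K) (hBK : B ⊆ K) (hMK : M ⊆ K)
    (hmid : ∀ x ∈ A, ∀ y ∈ B, (1 / 2 : ℝ) • x + (1 / 2 : ℝ) • y ∈ M)
    {lam : ℝ} (hlam : 0 < lam) {u : E d → ℝ} (hu : Continuous u) {l : ℝ}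
    (hLip : ∀ x ∈ K, ∀ y ∈ K, u y - u x ≤ l * ‖x - y‖)
    (h0 : 0 < ∫ x in A, wt lam x) (h1 : 0 < ∫ x in B, wt lam x) :
    (∫ x in A, wt lam x) + (∫ x in A, wt lam x) *
      ((∫ x in B, wt lam x * u x) / (∫ x in B, wt lam x) -
        (∫ x in A, wt lam x * u x) / (∫ x in A, wt lam x) - 2 * l ^ 2 / lam) +
      1 / 2 * ((∫ x in A, wt lam x) - (∫ x in A, wt lam x) ^ 2 / (∫ x in B, wt lam x)) ≤
      ∫ x in M, wt lam x := by
  set g0 : ℝ := ∫ x in A, wt lam x with hg0
  set g1 : ℝ := ∫ x in B, wt lam x with hg1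
  set a0 : ℝ := (∫ x in A, wt lam x * u x) / g0 with ha0
  set a1 : ℝ := (∫ x in B, wt lam x * u x) / g1 with ha1
  have hm0 : ∫ x in A, wt lam x * u x = a0 * g0 := by rw [ha0]; field_simp
  have hm1 : ∫ x in B, wt lam x * u x = a1 * g1 := by rw [ha1]; field_simp
  have j0 := jensen_exp hK hAK hu (-2) hm0
  have j1 := jensen_exp hK hBK hu 2 hm1
  have cont1 : Continuous (fun x : E d => wt lam x * Real.exp (-2 * u x)) :=
    (wt_continuous lam).mul (Real.continuous_exp.comp (by fun_prop))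
  have cont2 : Continuous (fun x : E d => wt lam x * Real.exp (2 * u x)) :=
    (wt_continuous lam).mul (Real.continuous_exp.comp (by fun_prop))
  have hpl := pl_mid hA hB hM (p := fun x => wt lam x * Real.exp (-2 * u x))
    (q := fun x => wt lam x * Real.exp (2 * u x)) (r := fun x => wt lam x)
    cont1.measurable cont2.measurable (wt_continuous lam).measurable
    (c := Real.exp (2 * l ^ 2 / lam)) (Real.exp_pos _).le
    (fun x => mul_pos (wt_pos _ _) (Real.exp_pos _))
    (fun x => mul_pos (wt_pos _ _) (Real.exp_pos _)) (fun x => wt_pos _ _)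
    (integrableOn_of_cont hK hAK cont1) (integrableOn_of_cont hK hBK cont2)
    (integrableOn_of_cont hK hMK (wt_continuous lam)) hmid ?_
  · have h2 : Real.sqrt (g0 * g1) * Real.exp (a1 - a0) ≤
        Real.sqrt ((∫ x in A, wt lam x * Real.exp (-2 * u x)) *
          (∫ x in B, wt lam x * Real.exp (2 * u x))) := by
      have e1 : Real.sqrt (g0 * g1) * Real.exp (a1 - a0) =
          Real.sqrt ((Real.exp (-2 * a0) * g0) * (Real.exp (2 * a1) * g1)) := by
        have : (Real.exp (-2 * a0) * g0) * (Real.exp (2 * a1) * g1) =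
            (g0 * g1) * (Real.exp (a1 - a0)) ^ 2 := by
          rw [← Real.exp_nat_mul]
          have : Real.exp (-2 * a0) * Real.exp (2 * a1) = Real.exp ((2 : ℕ) * (a1 - a0)) := by
            rw [← Real.exp_add]; congr 1; push_cast; ring
          rw [← this]; ring
        rw [this, Real.sqrt_mul (mul_nonneg h0.le h1.le) (Real.exp (a1 - a0) ^ 2),
          Real.sqrt_sq (Real.exp_pos _).le]
      rw [e1]
      apply Real.sqrt_le_sqrt
      exact mul_le_mul j0 j1 (by positivity) (le_trans (by positivity) j0)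
    have h3 := h2.trans hpl
    have h4 : Real.sqrt (g0 * g1) * Real.exp (a1 - a0 - 2 * l ^ 2 / lam) ≤ ∫ x in M, wt lam x := by
      rw [Real.exp_sub, ← mul_div_assoc, div_le_iff₀ (Real.exp_pos _)]
      linarith
    exact (scalar_ineq h0 h1).trans h4
  · intro x hx y hy
    have hl := hLip x (hAK hx) y (hBK hy)
    set r : ℝ := ‖x - y‖ with hr
    have hpar : ‖(1 / 2 : ℝ) • x + (1 / 2 : ℝ) • y‖ ^ 2 = (‖x‖ ^ 2 + ‖y‖ ^ 2) / 2 - r ^ 2 / 4 := by
      rw [hr, norm_add_sq_real, norm_sub_sq_real, norm_smul, norm_smul, inner_smul_left,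
        inner_smul_right]
      simp only [RCLike.conj_to_real]
      norm_num
      ring
    have e1 : wt lam x * Real.exp (-2 * u x) * (wt lam y * Real.exp (2 * u y)) =
        (Real.exp (-(lam / 2 * ((‖x‖ ^ 2 + ‖y‖ ^ 2) / 2)) + (u y - u x))) ^ 2 := by
      unfold wt
      rw [← Real.exp_nat_mul, ← Real.exp_add, ← Real.exp_add, ← Real.exp_add]
      congr 1
      push_cast
      ring
    rw [e1, Real.sqrt_sq (Real.exp_pos _).le]
    unfold wt
    rw [← Real.exp_add, hpar]
    apply Real.exp_le_exp.mpr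
    have h5 : l * r ≤ lam / 8 * r ^ 2 + 2 * l ^ 2 / lam := by
      have h6 : 0 ≤ (lam * r - 4 * l) ^ 2 / (8 * lam) := by positivity
      have h7 : (lam * r - 4 * l) ^ 2 / (8 * lam) = lam / 8 * r ^ 2 - l * r + 2 * l ^ 2 / lam := by
        field_simp
        ring
      linarith
    linarith

end Vale.Agent.P074.Key
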